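import Vale.Agent.P078.Local.Cluster.Swap
import Vale.Agent.P078.Local.Stable.Poly

/-!
# Cluster agreement for the colour mixture polynomial

For `B` containing the ball of radius `R` around `l` in `S`, the numerators of
`Φ_l^S - Φ_l^B` and of `m_lc^S - m_lc^B` along `z + s` lose `R` degrees; and with private colours
the mixture is a single determinant.
-/

namespace Vale.Agent.P078.Local.Cluster

open Finset Polynomial

section finite

variable {ι : Type*} [Fintype ι] [DecidableEq ι] {r : ℕ}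

lemma dom_inv {T : Finset ι} {c₀ : Fin r} {p : Term ι r} (hp : p ∈ dom T c₀) (i : ι) :
    p.1 i ∈ T ↔ i ∈ T := by
  obtain ⟨hfix, -⟩ := mem_dom.1 hp
  by_cases hi : i ∈ T
  · refine iff_of_true (by_contra fun h' => ?_) hi
    exact h' (by rwa [p.1.injective (hfix _ h')])
  · simp [hfix i hi]

/-- `qSum` is `q`. -/
lemma eval_qSum (h : ι → Fin r → ℝ) (z : ι → ℂ[X]) (x : ι → ι → ℂ) (c₀ : Fin r) (T : Finset ι)
    (s : ℂ) : (qSum (fun i c => (h i c : ℂ)) z x c₀ T).eval s =
      q T h (fun i => (z i).eval s) x := by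
  simp only [qSum, eval_finsetSum, q, Matrix.det_apply', Finset.mul_sum]
  rw [← Fintype.sum_prod_type']
  refine (Finset.sum_bij' (fun (u : (T → Fin r) × Equiv.Perm T) _ =>
      ((Equiv.Perm.ofSubtype u.2, fun i => if hi : i ∈ T then u.1 ⟨i, hi⟩ else c₀) : Term ι r))
    (fun p hp => ((fun a : T => p.2 a), p.1.subtypePerm (p := (· ∈ T)) (dom_inv hp))) ?_ ?_ ?_ ?_ ?_).symm
  · intro u _
    refine mem_dom.2 ⟨fun i hi => ?_, fun i hi => dif_neg hi⟩
    exact Equiv.Perm.ofSubtype_apply_of_not_mem u.2 hi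
  · intro p _; exact mem_univ _
  · intro u _
    refine Prod.ext (funext fun a => dif_pos a.2) ?_
    ext a
    simp
  · intro p hp
    obtain ⟨hfix, hcol⟩ := mem_dom.1 hp
    refine Prod.ext ?_ (funext fun i => ?_)
    · exact Equiv.Perm.ofSubtype_subtypePerm (dom_inv hp) fun i hi => by_contra fun h' => hi (hfix i h')
    · by_cases hi : i ∈ T
      · simp [hi]
      · simp [hi, hcol i hi]
  · rintro ⟨c, τ⟩ _
    simp only [val, eval_mul, eval_intCast, Equiv.Perm.sign_ofSubtype, eval_prod]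
    rw [← Finset.prod_coe_sort (s := T)]
    rw [mul_left_comm, ← Finset.prod_mul_distrib]
    congr 1
    refine Finset.prod_congr rfl fun a _ => ?_
    simp only [fac, colMatrix, Equiv.Perm.ofSubtype_apply_of_mem _ a.2, Finset.coe_mem,
      dite_true, Subtype.coe_eta, Subtype.coe_inj, eval_mul, eval_C, eval_sub,
      apply_ite (Polynomial.eval s), eval_zero]
    by_cases e : τ a = a <;> simp [e]

end finite

variable {ι : Type*} [DecidableEq ι] {r : ℕ}

/-- `q` only depends on the sites in `T`. -/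
lemma q_subtype {S T : Finset ι} (hT : T ⊆ S) (h : ι → Fin r → ℝ) (z : ι → ℂ) (x : ι → ι → ℂ) :
    q (T.subtype (· ∈ S)) (fun a : S => h a) (fun a : S => z a) (fun a b : S => x a b) =
      q T h z x := by
  let e : ↥(T.subtype (· ∈ S)) ≃ ↥T :=
    { toFun := fun a => ⟨a.1.1, Finset.mem_subtype.1 a.2⟩
      invFun := fun b => ⟨⟨b.1, hT b.2⟩, by simp [b.2]⟩
      left_inv := fun a => rfl
      right_inv := fun b => rfl }
  rw [q, q, ← (e.arrowCongr (Equiv.refl (Fin r))).sum_comp]
  refine Finset.sum_congr rfl fun c _ => ?_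
  congr 1
  · rw [← e.prod_comp]
    exact Finset.prod_congr rfl fun a _ => by simp [e]
  · rw [← Matrix.det_submatrix_equiv_self e]
    congr 1
    ext a b
    simp [colMatrix, e]

/-- Agreement for general affine data. -/
theorem q_cluster {G : SimpleGraph ι} {S B : Finset ι} {l : ι} {R : ℕ}
    (h : ι → Fin r → ℝ) (x : ι → ι → ℂ) (c₀ : Fin r) (hBS : B ⊆ S) (hl : l ∈ B)
    (hx : ∀ i ∈ S, ∀ j ∈ S, i ≠ j → x i j ≠ 0 → G.Adj i j)
    (hball : ∀ v ∈ S, ∀ p : G.Walk l v, p.length ≤ R → v ∈ B) (Z : ι → ℂ[X])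
    (hZ : ∀ i ∈ S, (Z i).natDegree ≤ 1) :
    ∃ P : ℂ[X], (∀ k, S.card + B.card ≤ k + R + 1 → P.coeff k = 0) ∧ ∀ s,
      P.eval s = q S h (fun i => (Z i).eval s) x * q (B.erase l) h (fun i => (Z i).eval s) x
        - q B h (fun i => (Z i).eval s) x * q (S.erase l) h (fun i => (Z i).eval s) x := by
  set l' : S := ⟨l, hBS hl⟩
  set Q : Finset S → ℂ[X] := qSum (fun (a : S) c => (h a c : ℂ)) (fun a : S => Z a)
    (fun a b : S => x a b) c₀
  set S' : Finset S := S.subtype (· ∈ S)
  set B' : Finset S := B.subtype (· ∈ S)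
  have hSc : S'.card = S.card := by simp [S']
  have hBc : B'.card = B.card := by
    rw [card_subtype, filter_eq_self.2 fun i hi => hBS hi]
  have heS : S'.erase l' = (S.erase l).subtype (· ∈ S) := by
    ext a; simp [S', l', Subtype.ext_iff]
  have heB : B'.erase l' = (B.erase l).subtype (· ∈ S) := by
    ext a; simp [B', l', Subtype.ext_iff]
  have hev : ∀ T ⊆ S, ∀ s, (Q (T.subtype (· ∈ S))).eval s = q T h (fun i => (Z i).eval s) x :=
    fun T hT s => by rw [eval_qSum, ← q_subtype hT]
  refine ⟨Q S' * Q (B'.erase l') - Q B' * Q (S'.erase l'), fun k hk => ?_, fun s => ?_⟩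
  · refine qSum_cluster (G := G.comap Subtype.val) (R := R) c₀ ?_ ?_ ?_ ?_ ?_ (by omega)
    · exact fun a _ => by simp [S']
    · simp [B', l', hl]
    · exact fun a _ => hZ a a.2
    · exact fun a _ b _ hab hx' => hx a a.2 b b.2 (fun e => hab (Subtype.ext e)) hx'
    · intro v _ p hp
      have := hball v v.2 (p.map (SimpleGraph.Hom.comap Subtype.val G))
        ((SimpleGraph.Walk.length_map ..).trans_le hp)
      simpa [B'] using this
  · rw [eval_sub, eval_mul, eval_mul, heS, heB, hev S subset_rfl, hev B hBS,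
      hev _ (erase_subset _ _), hev _ ((erase_subset _ _).trans hBS)]

/-- The numerator of `Φ_l^S - Φ_l^B` along `z + s` has degree at most `#S + #B - R - 2`. -/
theorem phi_cluster {G : SimpleGraph ι} {S B : Finset ι} {l : ι} {R : ℕ}
    (h : ι → Fin r → ℝ) (x : ι → ι → ℂ) (c₀ : Fin r) (hBS : B ⊆ S) (hl : l ∈ B)
    (hx : ∀ i ∈ S, ∀ j ∈ S, i ≠ j → x i j ≠ 0 → G.Adj i j)
    (hball : ∀ v ∈ S, ∀ p : G.Walk l v, p.length ≤ R → v ∈ B) (z : ι → ℂ) :
    ∃ P : ℂ[X], (∀ k, S.card + B.card ≤ k + R + 1 → P.coeff k = 0) ∧ ∀ s,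
      P.eval s = q S h (fun i => z i + s) x * q (B.erase l) h (fun i => z i + s) x
        - q B h (fun i => z i + s) x * q (S.erase l) h (fun i => z i + s) x := by
  obtain ⟨P, h1, h2⟩ := q_cluster h x c₀ hBS hl hx hball (fun i => C (z i) + X)
    (fun i _ => (natDegree_add_le _ _).trans (by simp))
  exact ⟨P, h1, fun s => by simpa using h2 s⟩

/-- The numerator of `m_lc^S - m_lc^B` along `z + s`; here `-q T (pure h l c) (z_l := 0)` is
`m_lc^T * q (T - l)`. -/
theorem m_cluster {G : SimpleGraph ι} {S B : Finset ι} {l : ι} {R : ℕ}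
    (h : ι → Fin r → ℝ) (x : ι → ι → ℂ) (c : Fin r) (hBS : B ⊆ S) (hl : l ∈ B)
    (hx : ∀ i ∈ S, ∀ j ∈ S, i ≠ j → x i j ≠ 0 → G.Adj i j)
    (hball : ∀ v ∈ S, ∀ p : G.Walk l v, p.length ≤ R → v ∈ B) (z : ι → ℂ) :
    ∃ P : ℂ[X], (∀ k, S.card + B.card ≤ k + R + 1 → P.coeff k = 0) ∧ ∀ s,
      P.eval s =
        q S (Local.pure h l c) (Function.update (fun i => z i + s) l 0) x
            * q (B.erase l) h (fun i => z i + s) x
          - q B (Local.pure h l c) (Function.update (fun i => z i + s) l 0) x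
            * q (S.erase l) h (fun i => z i + s) x := by
  obtain ⟨P, h1, h2⟩ := q_cluster (Local.pure h l c) x c hBS hl hx hball
    (Function.update (fun i => C (z i) + X) l 0) (fun i _ => by
      rcases eq_or_ne i l with rfl | hne
      · simp
      · rw [Function.update_of_ne hne]; exact (natDegree_add_le _ _).trans (by simp))
  refine ⟨P, h1, fun s => ?_⟩
  have e : (fun i => (Function.update (fun i => C (z i) + X) l (0 : ℂ[X]) i).eval s) =
      Function.update (fun i => z i + s) l 0 := by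
    funext i
    rcases eq_or_ne i l with rfl | hne
    · simp
    · simp [Function.update_of_ne hne]
  have hr : ∀ T : Finset ι, q (T.erase l) (Local.pure h l c)
      (Function.update (fun i => z i + s) l 0) x = q (T.erase l) h (fun i => z i + s) x :=
    fun T => q_congr (fun u hu => by simp [Local.pure, Function.update_of_ne (ne_of_mem_erase hu)])
      (fun u hu => by simp [Function.update_of_ne (ne_of_mem_erase hu)]) (fun _ _ _ _ => rfl)
  rw [h2, e, hr, hr]

/-- If every colour except `c₀` is used by one site at most, the mixture is the determinant with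
row `a` of `x` scaled by the probability of `c₀` at `a`. -/
theorem q_private {T : Finset ι} {h : ι → Fin r → ℝ} (hsum : ∀ a ∈ T, ∑ c, h a c = 1) (c₀ : Fin r)
    (hpriv : ∀ a ∈ T, ∀ b ∈ T, ∀ c, h a c ≠ 0 → h b c ≠ 0 → c ≠ c₀ → a = b) (z : ι → ℂ)
    (x : ι → ι → ℂ) (hdiag : ∀ a ∈ T, x a a = 0) :
    q T h z x = (Matrix.of fun a b : T =>
      (if a = b then z a else 0) - (h a c₀ : ℂ) * x a b).det := by
  simp only [q, Matrix.det_apply', Finset.mul_sum]
  rw [Finset.sum_comm]
  refine Finset.sum_congr rfl fun σ _ => ?_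
  set g : T → Fin r → ℂ := fun a d =>
    (h a d : ℂ) * (if σ a = a then z a else if d = c₀ then -x (σ a) a else 0) with hg
  have key : ∀ c : T → Fin r, (∏ a : T, (h a (c a) : ℂ)) * ∏ a, colMatrix T c z x (σ a) a =
      ∏ a, g a (c a) := by
    intro c
    simp only [hg]
    rw [Finset.prod_mul_distrib]
    by_cases hw : ∀ a : T, h a (c a) ≠ 0
    · congr 1
      by_cases hall : ∀ a, σ a ≠ a → c a = c₀
      · refine Finset.prod_congr rfl fun a _ => ?_
        by_cases e : σ a = a
        · simp [colMatrix, e, hdiag a a.2]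
        · simp [colMatrix, e, hall a e, hall (σ a) (fun e' => e (σ.injective e'))]
      · push Not at hall
        obtain ⟨a, e, ha⟩ := hall
        have hcol : c (σ a) ≠ c a := fun e' => e (Subtype.ext
          (hpriv _ (σ a).2 _ a.2 (c a) (by have := hw (σ a); rwa [e'] at this) (hw a) ha))
        rw [Finset.prod_eq_zero (mem_univ a) (by simp [colMatrix, e, hcol]),
          Finset.prod_eq_zero (mem_univ a) (by simp [e, ha])]
    · push Not at hw
      obtain ⟨a, ha⟩ := hw
      rw [Finset.prod_eq_zero (mem_univ a) (by simp [ha] : (h a (c a) : ℂ) = 0), zero_mul, zero_mul]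
  have hterm : ∀ c : T → Fin r, (∏ a : T, (h a (c a) : ℂ)) *
      ((Equiv.Perm.sign σ : ℂ) * ∏ a, colMatrix T c z x (σ a) a) =
      (Equiv.Perm.sign σ : ℂ) * ∏ a, g a (c a) := fun c => by rw [mul_left_comm, key c]
  simp only [hterm]
  rw [← Finset.mul_sum, ← Fintype.prod_sum g]
  congr 1
  set u : T → ℂ := fun a => if σ a = a then 1 else (h a c₀ : ℂ) with hu
  set w : T → ℂ := fun a => if σ a = a then z a else -x (σ a) a with hw
  have e1 : ∀ a, ∑ d, g a d = u a * w a := fun a => by
    simp only [hg, hu, hw]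
    by_cases e : σ a = a
    · simp only [e, ↓reduceIte, one_mul, ← Finset.sum_mul, ← Complex.ofReal_sum, hsum a a.2,
        Complex.ofReal_one]
    · simp [e]
  have e2 : ∀ a, (if σ a = a then z (σ a) else 0) - (h (σ a) c₀ : ℂ) * x (σ a) a =
      u (σ a) * w a := fun a => by
    simp only [hu, hw]
    by_cases e : σ a = a
    · simp [e, hdiag a a.2]
    · simp [e]
  simp only [e1, Matrix.of_apply, e2, Finset.prod_mul_distrib, Equiv.prod_comp σ u]

end Vale.Agent.P078.Local.Cluster
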