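import Mathlib

/-!
# Cluster swap for colour mixture determinants

A pair of (permutation, colouring) terms is split along the smallest set around a site `l` closed
under both permutations. If it avoids the outside of `B`, exchanging the two terms on this set
identifies the terms of `q_S q_(B-l)` with those of `q_B q_(S-l)`; otherwise the permutations move
more than `R` sites, which costs that many degrees.
-/

namespace Vale.Agent.P078.Local.Cluster

open Finset Equiv Polynomial

variable {ι : Type*} [Fintype ι] [DecidableEq ι] {r : ℕ}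

/-- A term: a permutation and a colouring. -/
abbrev Term (ι : Type*) (r : ℕ) := Equiv.Perm ι × (ι → Fin r)

/-- Terms supported on `T`, with padding colour `c₀`. -/
def dom (T : Finset ι) (c₀ : Fin r) : Finset (Term ι r) :=
  (univ.filter fun σ : Equiv.Perm ι => ∀ i ∉ T, σ i = i) ×ˢ
    Fintype.piFinset fun i => if i ∈ T then univ else {c₀}

lemma mem_dom {T : Finset ι} {c₀ : Fin r} {p : Term ι r} :
    p ∈ dom T c₀ ↔ (∀ i ∉ T, p.1 i = i) ∧ ∀ i ∉ T, p.2 i = c₀ := by
  simp only [dom, mem_product, mem_filter, mem_univ, true_and, Fintype.mem_piFinset]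
  refine and_congr_right fun _ => ⟨fun h i hi => ?_, fun h i => ?_⟩
  · simpa [hi] using h i
  · split_ifs with hi
    · exact mem_univ _
    · simp [h i hi]

variable (h : ι → Fin r → ℂ) (z : ι → ℂ[X]) (x : ι → ι → ℂ)

/-- The factor of site `i`. -/
noncomputable def fac (p : Term ι r) (i : ι) : ℂ[X] :=
  C (h i (p.2 i)) * ((if p.1 i = i then z i else 0) -
    (if p.2 (p.1 i) = p.2 i then C (x (p.1 i) i) else 0))

/-- The value of a term on `T`. -/
noncomputable def val (T : Finset ι) (p : Term ι r) : ℂ[X] :=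
  ((Equiv.Perm.sign p.1 : ℤ) : ℂ[X]) * ∏ i ∈ T, fac h z x p i

/-- `σ` outside `K`, `π` on `K`. -/
def mixP (K : Finset ι) (σ π : Equiv.Perm ι) : Equiv.Perm ι :=
  if hK : (∀ i, σ i ∈ K ↔ i ∈ K) ∧ (∀ i, π i ∈ K ↔ i ∈ K) then
    { toFun := fun i => if i ∈ K then π i else σ i
      invFun := fun i => if i ∈ K then π.symm i else σ.symm i
      left_inv := fun i => by
        by_cases hi : i ∈ K
        · simp [hi, (hK.2 i).2 hi]
        · simp [hi, show σ i ∉ K from fun hh => hi ((hK.1 i).1 hh)]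
      right_inv := fun i => by
        by_cases hi : i ∈ K
        · have : π.symm i ∈ K := (hK.2 _).1 (by simpa using hi)
          simp [hi, this]
        · have : σ.symm i ∉ K := fun hh => hi (by simpa using (hK.1 _).2 hh)
          simp [hi, this] }
  else σ

/-- Invariance under a permutation. -/
def Inv (K : Finset ι) (σ : Equiv.Perm ι) : Prop := ∀ i, σ i ∈ K ↔ i ∈ K

lemma mixP_apply {K : Finset ι} {σ π : Equiv.Perm ι} (hσ : Inv K σ) (hπ : Inv K π) (i : ι) :
    mixP K σ π i = if i ∈ K then π i else σ i := by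
  rw [mixP, dif_pos ⟨hσ, hπ⟩]; rfl

lemma inv_mixP {K : Finset ι} {σ π : Equiv.Perm ι} (hσ : Inv K σ) (hπ : Inv K π) :
    Inv K (mixP K σ π) := fun i => by
  rw [mixP_apply hσ hπ]; split_ifs with hi
  · exact hπ i
  · exact hσ i

omit [Fintype ι] [DecidableEq ι] in
lemma inv_one (K : Finset ι) : Inv K (1 : Equiv.Perm ι) := fun i => by simp

lemma sign_mixP {K : Finset ι} {σ π : Equiv.Perm ι} (hσ : Inv K σ) (hπ : Inv K π) :
    Equiv.Perm.sign (mixP K σ π) * Equiv.Perm.sign (mixP K π σ) =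
      Equiv.Perm.sign σ * Equiv.Perm.sign π := by
  have split : ∀ α β : Equiv.Perm ι, Inv K α → Inv K β →
      mixP K α β = mixP K α 1 * mixP K 1 β := by
    intro α β hα hβ
    ext i
    simp only [Equiv.Perm.mul_apply, mixP_apply hα hβ, mixP_apply (inv_one K) hβ,
      mixP_apply hα (inv_one K), Equiv.Perm.one_apply]
    by_cases hi : i ∈ K <;> simp [hi, hβ i]
  have self : ∀ α : Equiv.Perm ι, Inv K α → mixP K α α = α := fun α hα => by
    ext i; simp [mixP_apply hα hα]
  have e1 := congrArg Equiv.Perm.sign ((self σ hσ).symm.trans (split σ σ hσ hσ))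
  have e2 := congrArg Equiv.Perm.sign ((self π hπ).symm.trans (split π π hπ hπ))
  rw [split σ π hσ hπ, split π σ hπ hσ, e1, e2]
  simp only [map_mul]
  ac_rfl

/-- A set which contains `l` and is closed under both permutations. -/
def Closed (l : ι) (σ π : Equiv.Perm ι) (C : Finset ι) : Prop :=
  l ∈ C ∧ (∀ i ∈ C, σ i ∈ C) ∧ ∀ i ∈ C, π i ∈ C

open Classical in
/-- The component of `l`. -/
noncomputable def comp (l : ι) (σ π : Equiv.Perm ι) : Finset ι :=
  univ.filter fun i => ∀ C : Finset ι, Closed l σ π C → i ∈ C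

lemma mem_comp {l : ι} {σ π : Equiv.Perm ι} {i : ι} :
    i ∈ comp l σ π ↔ ∀ C : Finset ι, Closed l σ π C → i ∈ C := by simp [comp]

lemma closed_comp (l : ι) (σ π : Equiv.Perm ι) : Closed l σ π (comp l σ π) := by
  exact ⟨mem_comp.2 fun C hC => hC.1,
    fun i hi => mem_comp.2 fun C hC => hC.2.1 i (mem_comp.1 hi C hC),
    fun i hi => mem_comp.2 fun C hC => hC.2.2 i (mem_comp.1 hi C hC)⟩

lemma comp_subset {l : ι} {σ π : Equiv.Perm ι} {C : Finset ι} (hC : Closed l σ π C) :
    comp l σ π ⊆ C := fun i hi => mem_comp.1 hi C hC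

omit [Fintype ι] in
lemma inv_of_maps {K : Finset ι} {σ : Equiv.Perm ι} (hm : ∀ i ∈ K, σ i ∈ K) : Inv K σ := by
  intro i
  refine ⟨fun hi => ?_, hm i⟩
  have he : K.image σ = K := eq_of_subset_of_card_le (image_subset_iff.2 hm)
    (by rw [card_image_of_injective _ σ.injective])
  rw [← he, mem_image] at hi
  obtain ⟨j, hj, e⟩ := hi
  rwa [← σ.injective e]

/-- Exchange of two terms on `K`. -/
noncomputable def swapOn (K : Finset ι) (u : Term ι r × Term ι r) : Term ι r × Term ι r :=
  ((mixP K u.1.1 u.2.1, fun i => if i ∈ K then u.2.2 i else u.1.2 i),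
    (mixP K u.2.1 u.1.1, fun i => if i ∈ K then u.1.2 i else u.2.2 i))

/-- Exchange of two terms on the component of `l`. -/
noncomputable def swap (l : ι) (u : Term ι r × Term ι r) : Term ι r × Term ι r :=
  swapOn (comp l u.1.1 u.2.1) u

lemma swapOn_swapOn {K : Finset ι} {u : Term ι r × Term ι r} (hσ : Inv K u.1.1)
    (hπ : Inv K u.2.1) : swapOn K (swapOn K u) = u := by
  refine Prod.ext (Prod.ext ?_ ?_) (Prod.ext ?_ ?_)
  all_goals simp only [swapOn]
  · ext i
    rw [mixP_apply (inv_mixP hσ hπ) (inv_mixP hπ hσ), mixP_apply hσ hπ, mixP_apply hπ hσ]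
    split_ifs <;> rfl
  · funext i; split_ifs <;> rfl
  · ext i
    rw [mixP_apply (inv_mixP hπ hσ) (inv_mixP hσ hπ), mixP_apply hσ hπ, mixP_apply hπ hσ]
    split_ifs <;> rfl
  · funext i; split_ifs <;> rfl

lemma inv_comp (l : ι) (σ π : Equiv.Perm ι) :
    Inv (comp l σ π) σ ∧ Inv (comp l σ π) π :=
  ⟨inv_of_maps (closed_comp l σ π).2.1, inv_of_maps (closed_comp l σ π).2.2⟩

lemma comp_swap (l : ι) (u : Term ι r × Term ι r) :
    comp l (swap l u).1.1 (swap l u).2.1 = comp l u.1.1 u.2.1 := by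
  set K := comp l u.1.1 u.2.1 with hK
  obtain ⟨hσ, hπ⟩ := inv_comp l u.1.1 u.2.1
  have hc := closed_comp l (swap l u).1.1 (swap l u).2.1
  have hsub : comp l (swap l u).1.1 (swap l u).2.1 ⊆ K := comp_subset
    ⟨(closed_comp l _ _).1, fun i hi => (inv_mixP hσ hπ i).2 hi,
      fun i hi => (inv_mixP hπ hσ i).2 hi⟩
  refine Subset.antisymm hsub (comp_subset ⟨hc.1, fun i hi => ?_, fun i hi => ?_⟩)
  · have h2 := hc.2.2 i hi
    rwa [show (swap l u).2.1 i = u.1.1 i from
      (mixP_apply hπ hσ i).trans (if_pos (hsub hi))] at h2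
  · have h2 := hc.2.1 i hi
    rwa [show (swap l u).1.1 i = u.2.1 i from
      (mixP_apply hσ hπ i).trans (if_pos (hsub hi))] at h2

lemma swap_swap (l : ι) (u : Term ι r × Term ι r) : swap l (swap l u) = u := by
  obtain ⟨hσ, hπ⟩ := inv_comp l u.1.1 u.2.1
  calc swap l (swap l u) = swapOn (comp l u.1.1 u.2.1) (swap l u) := by
        unfold swap; exact congrArg (swapOn · _) (comp_swap l u)
    _ = u := swapOn_swapOn hσ hπ

variable {h z x}

/-- Swapping on the component maps terms to terms and keeps the value. -/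
lemma swap_spec {l : ι} {T U T' U' : Finset ι} {c₀ : Fin r} {u : Term ι r × Term ι r}
    (hu : u ∈ dom T c₀ ×ˢ dom U c₀)
    (hout : ∀ i ∉ comp l u.1.1 u.2.1, (i ∈ T' ↔ i ∈ T) ∧ (i ∈ U' ↔ i ∈ U))
    (hin : ∀ i ∈ comp l u.1.1 u.2.1, (i ∈ T' ↔ i ∈ U) ∧ (i ∈ U' ↔ i ∈ T)) :
    swap l u ∈ dom T' c₀ ×ˢ dom U' c₀ ∧
      val h z x T' (swap l u).1 * val h z x U' (swap l u).2 =
        val h z x T u.1 * val h z x U u.2 := by
  obtain ⟨hσ, hπ⟩ := inv_comp l u.1.1 u.2.1
  set K := comp l u.1.1 u.2.1 with hK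
  simp only [mem_product, mem_dom] at hu ⊢
  obtain ⟨⟨a1, a2⟩, b1, b2⟩ := hu
  constructor
  · refine ⟨⟨fun i hi => ?_, fun i hi => ?_⟩, fun i hi => ?_, fun i hi => ?_⟩ <;>
      simp only [swap, swapOn, ← hK, mixP_apply hσ hπ, mixP_apply hπ hσ] <;> by_cases hk : i ∈ K <;>
      simp only [hk, ↓reduceIte]
    · exact b1 i (fun hh => hi ((hin i hk).1.2 hh))
    · exact a1 i (fun hh => hi ((hout i hk).1.2 hh))
    · exact b2 i (fun hh => hi ((hin i hk).1.2 hh))
    · exact a2 i (fun hh => hi ((hout i hk).1.2 hh))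
    · exact a1 i (fun hh => hi ((hin i hk).2.2 hh))
    · exact b1 i (fun hh => hi ((hout i hk).2.2 hh))
    · exact a2 i (fun hh => hi ((hin i hk).2.2 hh))
    · exact b2 i (fun hh => hi ((hout i hk).2.2 hh))
  · have hf : ∀ i, fac h z x (swap l u).1 i = if i ∈ K then fac h z x u.2 i else fac h z x u.1 i := by
      intro i
      simp only [fac, swap, swapOn, ← hK, mixP_apply hσ hπ]
      by_cases hk : i ∈ K
      · simp [hk, (hπ i).2 hk]
      · simp [hk, show u.1.1 i ∉ K from fun hh => hk ((hσ i).1 hh)]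
    have hg : ∀ i, fac h z x (swap l u).2 i = if i ∈ K then fac h z x u.1 i else fac h z x u.2 i := by
      intro i
      simp only [fac, swap, swapOn, ← hK, mixP_apply hπ hσ]
      by_cases hk : i ∈ K
      · simp [hk, (hσ i).2 hk]
      · simp [hk, show u.2.1 i ∉ K from fun hh => hk ((hπ i).1 hh)]
    have e1 : T'.filter (· ∈ K) = U.filter (· ∈ K) := by
      ext i; simp only [mem_filter]; exact and_congr_left fun hk => (hin i hk).1
    have e2 : T'.filter (fun i => ¬ i ∈ K) = T.filter (fun i => ¬ i ∈ K) := by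
      ext i; simp only [mem_filter]; exact and_congr_left fun hk => (hout i hk).1
    have e3 : U'.filter (· ∈ K) = T.filter (· ∈ K) := by
      ext i; simp only [mem_filter]; exact and_congr_left fun hk => (hin i hk).2
    have e4 : U'.filter (fun i => ¬ i ∈ K) = U.filter (fun i => ¬ i ∈ K) := by
      ext i; simp only [mem_filter]; exact and_congr_left fun hk => (hout i hk).2
    have hs : ((Equiv.Perm.sign (swap l u).1.1 : ℤ) : ℂ[X]) * (Equiv.Perm.sign (swap l u).2.1 : ℤ) =
        ((Equiv.Perm.sign u.1.1 : ℤ) : ℂ[X]) * (Equiv.Perm.sign u.2.1 : ℤ) := by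
      have := congrArg (fun v : ℤˣ => ((v : ℤ) : ℂ[X])) (sign_mixP hσ hπ)
      simpa [swap, swapOn, ← hK] using this
    have hp : (∏ i ∈ T', fac h z x (swap l u).1 i) * ∏ i ∈ U', fac h z x (swap l u).2 i =
        (∏ i ∈ T, fac h z x u.1 i) * ∏ i ∈ U, fac h z x u.2 i := by
      simp only [hf, hg, prod_ite, e1, e2, e3, e4]
      rw [← prod_filter_mul_prod_filter_not T (· ∈ K) (fun i => fac h z x u.1 i),
        ← prod_filter_mul_prod_filter_not U (· ∈ K) (fun i => fac h z x u.2 i)]
      ring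
    simp only [val]
    linear_combination (∏ i ∈ T, fac h z x u.1 i) * (∏ i ∈ U, fac h z x u.2 i) * hs +
      ((Equiv.Perm.sign (swap l u).1.1 : ℤ) : ℂ[X]) * (Equiv.Perm.sign (swap l u).2.1 : ℤ) * hp

/-- Number of moved sites. -/
def moves (u : Term ι r × Term ι r) : ℕ := u.1.1.support.card + u.2.1.support.card

/-- Steps from `l`. -/
def grow (l : ι) (σ π : Equiv.Perm ι) : ℕ → Finset ι
  | 0 => {l}
  | j + 1 => grow l σ π j ∪ (grow l σ π j).image σ ∪ (grow l σ π j).image π

/-- If every move is an edge, every site of the component is within `moves` steps. -/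
lemma exists_walk {G : SimpleGraph ι} {l : ι} {u : Term ι r × Term ι r}
    (h1 : ∀ i, u.1.1 i ≠ i → G.Adj i (u.1.1 i)) (h2 : ∀ i, u.2.1 i ≠ i → G.Adj i (u.2.1 i))
    {v : ι} (hv : v ∈ comp l u.1.1 u.2.1) : ∃ p : G.Walk l v, p.length ≤ moves u := by
  set σ := u.1.1
  set π := u.2.1
  have hw : ∀ j, ∀ v ∈ grow l σ π j, ∃ p : G.Walk l v, p.length ≤ j := by
    intro j
    induction j with
    | zero => intro v hv; simp only [grow, mem_singleton] at hv; subst hv; exact ⟨.nil, le_rfl⟩
    | succ j ih =>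
      intro v hv
      simp only [grow, mem_union, mem_image] at hv
      rcases hv with (hv | ⟨w, hw, rfl⟩) | ⟨w, hw, rfl⟩
      · obtain ⟨p, hp⟩ := ih v hv; exact ⟨p, by omega⟩
      · obtain ⟨p, hp⟩ := ih w hw
        by_cases e : σ w = w
        · rw [e]; exact ⟨p, by omega⟩
        · exact ⟨p.concat (h1 w e), by rw [SimpleGraph.Walk.length_concat]; omega⟩
      · obtain ⟨p, hp⟩ := ih w hw
        by_cases e : π w = w
        · rw [e]; exact ⟨p, by omega⟩
        · exact ⟨p.concat (h2 w e), by rw [SimpleGraph.Walk.length_concat]; omega⟩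
  set M := insert l (σ.support ∪ π.support) with hM
  have hMc : Closed l σ π M := by
    refine ⟨mem_insert_self .., fun i hi => ?_, fun i hi => ?_⟩
    · by_cases e : σ i = i
      · rw [e]; exact hi
      · simp [hM, Equiv.Perm.mem_support, e]
    · by_cases e : π i = i
      · rw [e]; exact hi
      · simp [hM, Equiv.Perm.mem_support, e]
  have hsub : ∀ j, grow l σ π j ⊆ M := by
    intro j
    induction j with
    | zero => simp [grow, hM]
    | succ j ih =>
      simp only [grow, union_subset_iff, image_subset_iff]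
      exact ⟨⟨ih, fun i hi => hMc.2.1 i (ih hi)⟩, fun i hi => hMc.2.2 i (ih hi)⟩
  have hl : ∀ j, l ∈ grow l σ π j := by
    intro j
    induction j with
    | zero => simp [grow]
    | succ j ih => simp [grow, ih]
  have hgrow : ∀ j, comp l σ π ⊆ grow l σ π j ∨ j + 1 ≤ (grow l σ π j).card := by
    intro j
    induction j with
    | zero => right; simp [grow]
    | succ j ih =>
      have hle : grow l σ π j ⊆ grow l σ π (j + 1) := by
        simp only [grow, union_assoc]; exact subset_union_left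
      rcases ih with ih | ih
      · exact Or.inl (ih.trans hle)
      · by_cases e : grow l σ π (j + 1) = grow l σ π j
        · refine Or.inl ((comp_subset (C := grow l σ π j) ⟨hl j, fun i hi => ?_, fun i hi => ?_⟩).trans hle)
          · rw [← e]; simp only [grow, mem_union, mem_image]; exact Or.inl (Or.inr ⟨i, hi, rfl⟩)
          · rw [← e]; simp only [grow, mem_union, mem_image]; exact Or.inr ⟨i, hi, rfl⟩
        · have := card_lt_card (lt_of_le_of_ne hle (Ne.symm e))
          exact Or.inr (by omega)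
  have hMle : M.card ≤ moves u + 1 :=
    (card_insert_le _ _).trans (Nat.succ_le_succ (card_union_le _ _))
  rcases hgrow (moves u) with e | e
  · exact hw _ v (e hv)
  · have : grow l σ π (moves u) = M := eq_of_subset_of_card_le (hsub _) (by omega)
    exact hw _ v (this ▸ comp_subset hMc hv)

/-- Moved sites contribute no degree. -/
lemma natDegree_val {T : Finset ι} {c₀ : Fin r} {p : Term ι r} (hp : p ∈ dom T c₀)
    (hz : ∀ i ∈ T, (z i).natDegree ≤ 1) :
    (val h z x T p).natDegree + p.1.support.card ≤ T.card := by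
  obtain ⟨hfix, -⟩ := mem_dom.1 hp
  have hT : p.1.support ⊆ T := fun i hi => by
    by_contra h'; exact (Equiv.Perm.mem_support.1 hi) (hfix i h')
  have hd : ∀ i ∈ T, (fac h z x p i).natDegree ≤ if i ∈ p.1.support then 0 else 1 := by
    intro i hi
    refine (natDegree_C_mul_le _ _).trans ((natDegree_sub_le _ _).trans (max_le ?_ ?_))
    · by_cases e : p.1 i = i
      · simpa [e, Equiv.Perm.mem_support] using hz i hi
      · simp [e]
    · split_ifs <;> simp
  have h0 : (val h z x T p).natDegree ≤ ∑ i ∈ T, if i ∈ p.1.support then 0 else 1 := by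
    refine natDegree_mul_le.trans ?_
    rw [natDegree_intCast, zero_add]
    exact (natDegree_prod_le _ _).trans (sum_le_sum hd)
  rw [sum_ite, sum_const_zero, zero_add, sum_const, smul_eq_mul, mul_one] at h0
  rw [show T.filter (fun i => ¬ i ∈ p.1.support) = T \ p.1.support from
    (sdiff_eq_filter T _).symm, card_sdiff_of_subset hT] at h0
  have := card_le_card hT
  omega

/-- A nonzero term only moves along edges. -/
lemma adj_of_val_ne_zero {G : SimpleGraph ι} {T : Finset ι} {c₀ : Fin r} {p : Term ι r}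
    (hp : p ∈ dom T c₀) (hx : ∀ i ∈ T, ∀ j ∈ T, i ≠ j → x i j ≠ 0 → G.Adj i j)
    (hne : val h z x T p ≠ 0) (i : ι) (hi : p.1 i ≠ i) : G.Adj i (p.1 i) := by
  obtain ⟨hfix, -⟩ := mem_dom.1 hp
  have hT : i ∈ T := by_contra fun h' => hi (hfix i h')
  have hT' : p.1 i ∈ T := by_contra fun h' => hi (p.1.injective (hfix _ h'))
  refine (hx _ hT' i hT hi fun e => hne ?_).symm
  rw [val, prod_eq_zero hT (by simp [fac, hi, e]), mul_zero]

/-- The colour mixture polynomial with padded colourings. -/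
noncomputable def qSum (h : ι → Fin r → ℂ) (z : ι → ℂ[X]) (x : ι → ι → ℂ) (c₀ : Fin r)
    (T : Finset ι) : ℂ[X] := ∑ p ∈ dom T c₀, val h z x T p

/-- A term whose component leaves `B` moves more than `R` sites. -/
lemma coeff_bad {G : SimpleGraph ι} {S B T U : Finset ι} {l : ι} {R : ℕ} {c₀ : Fin r}
    (hz : ∀ i ∈ S, (z i).natDegree ≤ 1)
    (hx : ∀ i ∈ S, ∀ j ∈ S, i ≠ j → x i j ≠ 0 → G.Adj i j)
    (hball : ∀ v ∈ S, ∀ p : G.Walk l v, p.length ≤ R → v ∈ B)
    (hT : T ⊆ S) (hU : U ⊆ S) (hlTU : l ∈ T ∪ U) (hc : T.card + U.card + 1 ≤ S.card + B.card)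
    {k : ℕ} (hk : S.card + B.card ≤ k + R + 1) {u : Term ι r × Term ι r}
    (hu : u ∈ dom T c₀ ×ˢ dom U c₀) (hg : ¬ comp l u.1.1 u.2.1 ⊆ B) :
    (val h z x T u.1 * val h z x U u.2).coeff k = 0 := by
  rw [mem_product] at hu
  by_cases e : val h z x T u.1 = 0 ∨ val h z x U u.2 = 0
  · rcases e with e | e <;> simp [e]
  push Not at e
  have h1 := adj_of_val_ne_zero hu.1 (fun i hi j hj => hx i (hT hi) j (hT hj)) e.1
  have h2 := adj_of_val_ne_zero hu.2 (fun i hi j hj => hx i (hU hi) j (hU hj)) e.2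
  obtain ⟨v, hv, hvB⟩ := not_subset.1 hg
  have hvS : v ∈ S := by
    have hC : Closed l u.1.1 u.2.1 (T ∪ U) := by
      refine ⟨hlTU, fun i hi => ?_, fun i hi => ?_⟩
      · by_cases e' : u.1.1 i = i
        · rw [e']; exact hi
        · exact mem_union_left _ (by_contra fun h' =>
            e' (u.1.1.injective ((mem_dom.1 hu.1).1 _ h')))
      · by_cases e' : u.2.1 i = i
        · rw [e']; exact hi
        · exact mem_union_right _ (by_contra fun h' =>
            e' (u.2.1.injective ((mem_dom.1 hu.2).1 _ h')))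
    rcases mem_union.1 (comp_subset hC hv) with h' | h'
    · exact hT h'
    · exact hU h'
  obtain ⟨p, hp⟩ := exists_walk h1 h2 hv
  have hR : R < moves u := lt_of_not_ge fun h' => hvB (hball v hvS p (hp.trans h'))
  refine coeff_eq_zero_of_natDegree_lt (natDegree_mul_le.trans_lt ?_)
  have d1 := natDegree_val (h := h) (x := x) hu.1 (fun i hi => hz i (hT hi))
  have d2 := natDegree_val (h := h) (x := x) hu.2 (fun i hi => hz i (hU hi))
  simp only [moves] at hR
  omega

/-- The terms whose component stays in `B` cancel. -/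
lemma sum_good {S B : Finset ι} {l : ι} {c₀ : Fin r} (hBS : B ⊆ S) :
    ∑ u ∈ (dom S c₀ ×ˢ dom (B.erase l) c₀).filter (fun u => comp l u.1.1 u.2.1 ⊆ B),
        val h z x S u.1 * val h z x (B.erase l) u.2 =
      ∑ u ∈ (dom (S.erase l) c₀ ×ˢ dom B c₀).filter (fun u => comp l u.1.1 u.2.1 ⊆ B),
        val h z x (S.erase l) u.1 * val h z x B u.2 := by
  have hne : ∀ (u : Term ι r × Term ι r) i, i ∉ comp l u.1.1 u.2.1 → i ≠ l :=
    fun u i hi e => by subst e; exact hi (closed_comp i u.1.1 u.2.1).1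
  refine sum_bij' (fun u _ => swap l u) (fun u _ => swap l u) ?_ ?_ (fun u _ => swap_swap l u)
    (fun u _ => swap_swap l u) ?_
  · intro u hu
    obtain ⟨hu, hg⟩ := mem_filter.1 hu
    refine mem_filter.2 ⟨(swap_spec (h := h) (z := z) (x := x) hu (fun i hi => ?_)
      (fun i hi => ?_)).1, by rw [comp_swap]; exact hg⟩
    · simp [mem_erase, hne u i hi]
    · simp [mem_erase, hg hi, hBS (hg hi)]
  · intro u hu
    obtain ⟨hu, hg⟩ := mem_filter.1 hu
    refine mem_filter.2 ⟨(swap_spec (h := h) (z := z) (x := x) hu (fun i hi => ?_)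
      (fun i hi => ?_)).1, by rw [comp_swap]; exact hg⟩
    · simp [mem_erase, hne u i hi]
    · simp [mem_erase, hg hi, hBS (hg hi)]
  · intro u hu
    obtain ⟨hu, hg⟩ := mem_filter.1 hu
    refine (swap_spec (h := h) (z := z) (x := x) hu (fun i hi => ?_) (fun i hi => ?_)).2.symm
    · simp [mem_erase, hne u i hi]
    · simp [mem_erase, hg hi, hBS (hg hi)]

/-- **Cluster agreement**: `q_S q_(B-l) - q_B q_(S-l)` loses `R` degrees. -/
theorem qSum_cluster {G : SimpleGraph ι} {S B : Finset ι} {l : ι} {R : ℕ} (c₀ : Fin r)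
    (hBS : B ⊆ S) (hl : l ∈ B) (hz : ∀ i ∈ S, (z i).natDegree ≤ 1)
    (hx : ∀ i ∈ S, ∀ j ∈ S, i ≠ j → x i j ≠ 0 → G.Adj i j)
    (hball : ∀ v ∈ S, ∀ p : G.Walk l v, p.length ≤ R → v ∈ B) {k : ℕ}
    (hk : S.card + B.card ≤ k + R + 1) :
    (qSum h z x c₀ S * qSum h z x c₀ (B.erase l) -
      qSum h z x c₀ B * qSum h z x c₀ (S.erase l)).coeff k = 0 := by
  have hS := card_erase_add_one (hBS hl)
  have hB := card_erase_add_one hl
  rw [mul_comm (qSum h z x c₀ B), qSum, qSum, qSum, qSum, sum_mul_sum, sum_mul_sum,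
    ← sum_product', ← sum_product',
    ← sum_filter_add_sum_filter_not (dom S c₀ ×ˢ dom (B.erase l) c₀)
      (fun u => comp l u.1.1 u.2.1 ⊆ B),
    ← sum_filter_add_sum_filter_not (dom (S.erase l) c₀ ×ˢ dom B c₀)
      (fun u => comp l u.1.1 u.2.1 ⊆ B),
    sum_good hBS, add_sub_add_left_eq_sub, coeff_sub, finsetSum_coeff, finsetSum_coeff,
    sum_eq_zero, sum_eq_zero, sub_self]
  · intro u hu
    obtain ⟨hu, hg⟩ := mem_filter.1 hu
    exact coeff_bad hz hx hball (erase_subset _ _) hBS (mem_union_right _ hl) (by omega) hk hu hg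
  · intro u hu
    obtain ⟨hu, hg⟩ := mem_filter.1 hu
    exact coeff_bad hz hx hball subset_rfl ((erase_subset _ _).trans hBS)
      (mem_union_left _ (hBS hl)) (by omega) hk hu hg

end Vale.Agent.P078.Local.Cluster
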